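import Vale.Agent.P204.Defs

namespace Vale.Agent.P204

open scoped ContDiff Matrix

theorem ev_add_left (M : M4) (v v' w : R4) : ev M (v + v') w = ev M v w + ev M v' w := by
  simp only [ev, Fin.sum_univ_four, Pi.add_apply]; ring

theorem ev_add_right (M : M4) (v w w' : R4) : ev M v (w + w') = ev M v w + ev M v w' := by
  simp only [ev, Fin.sum_univ_four, Pi.add_apply]; ring

theorem ev_smul_left (M : M4) (a : ℝ) (v w : R4) : ev M (a • v) w = a * ev M v w := by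
  simp only [ev, Fin.sum_univ_four, Pi.smul_apply, smul_eq_mul]; ring

theorem ev_smul_right (M : M4) (a : ℝ) (v w : R4) : ev M v (a • w) = a * ev M v w := by
  simp only [ev, Fin.sum_univ_four, Pi.smul_apply, smul_eq_mul]; ring

theorem ev_neg_right (M : M4) (v w : R4) : ev M v (-w) = -ev M v w := by
  simp only [ev, Fin.sum_univ_four, Pi.neg_apply]; ring

theorem ev_neg_left (M : M4) (v w : R4) : ev M (-v) w = -ev M v w := by
  simp only [ev, Fin.sum_univ_four, Pi.neg_apply]; ring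

theorem ev_eq (M : M4) (v w : R4) : ev M v w = v ⬝ᵥ (M *ᵥ w) := by
  simp only [ev, dotProduct, Matrix.mulVec, Finset.mul_sum, mul_assoc]

theorem ev_conj (X M : M4) (v w : R4) : ev (Xᵀ * M * X) v w = ev M (X *ᵥ v) (X *ᵥ w) := by
  rw [ev_eq, ev_eq, ← Matrix.mulVec_mulVec, ← Matrix.mulVec_mulVec, Matrix.dotProduct_mulVec,
    Matrix.vecMul_transpose]

/-- the kernel vector of a two-form on `ℝ³` -/
def bh (B : M4) : R4 := ![0, B 2 3, B 3 1, B 1 2]

/-- hypotheses of the pointwise statement -/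
structure Ptw (B J : M4) : Prop where
  z : ∀ j, B 0 j = 0
  anti : ∀ i j, B i j = -B j i
  sq : J * J = -1
  pos : ∀ x : R4, x 0 = 0 → (J *ᵥ x) 0 = 0 → x ≠ 0 → 0 < ev B x (J *ᵥ x)

variable {B J : M4}

theorem ev_B (hz : ∀ j, B 0 j = 0) (ha : ∀ i j, B i j = -B j i) (v w : R4) :
    ev B v w = B 1 2 * (v 1 * w 2 - v 2 * w 1) + B 2 3 * (v 2 * w 3 - v 3 * w 2)
      + B 3 1 * (v 3 * w 1 - v 1 * w 3) := by
  have d : ∀ i, B i i = 0 := fun i => by have := ha i i; linarith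
  have z' : ∀ i, B i 0 = 0 := fun i => by rw [ha, hz, neg_zero]
  simp only [ev, Fin.sum_univ_four, hz, z', d, ha 2 1, ha 3 2, ha 1 3]
  ring

theorem ev_bh (hz : ∀ j, B 0 j = 0) (ha : ∀ i j, B i j = -B j i) (w : R4) :
    ev B (bh B) w = 0 := by
  rw [ev_B hz ha]
  simp only [bh, Matrix.cons_val]
  ring

theorem ev_anti (hz : ∀ j, B 0 j = 0) (ha : ∀ i j, B i j = -B j i) (v w : R4) :
    ev B v w = -ev B w v := by
  rw [ev_B hz ha, ev_B hz ha]; ring

theorem ev_bh' (hz : ∀ j, B 0 j = 0) (ha : ∀ i j, B i j = -B j i) (w : R4) :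
    ev B w (bh B) = 0 := by
  rw [ev_anti hz ha, ev_bh hz ha, neg_zero]

theorem cramer (hz : ∀ j, B 0 j = 0) (ha : ∀ i j, B i j = -B j i) (x y u : R4) (hx : x 0 = 0)
    (hy : y 0 = 0) (hu : u 0 = 0) :
    ∃ D : ℝ, ev B x y • u + ev B y u • x + ev B u x • y = D • bh B := by
  refine ⟨x 1 * (y 2 * u 3 - y 3 * u 2) + x 2 * (y 3 * u 1 - y 1 * u 3)
    + x 3 * (y 1 * u 2 - y 2 * u 1), ?_⟩
  funext i
  simp only [Pi.add_apply, Pi.smul_apply, smul_eq_mul, ev_B hz ha]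
  fin_cases i
  · simp [bh, hx, hy, hu]
  · simp only [bh, Fin.mk_one, Matrix.cons_val]; ring
  · simp only [bh, Fin.reduceFinMk, Matrix.cons_val]; ring
  · simp only [bh, Fin.reduceFinMk, Matrix.cons_val]; ring

theorem JJ (hJ : J * J = -1) (v : R4) : J *ᵥ (J *ᵥ v) = -v := by
  rw [Matrix.mulVec_mulVec, hJ, Matrix.neg_mulVec, Matrix.one_mulVec]

theorem bh_zero : bh B 0 = 0 := rfl

/-- `ρ ≠ 0` -/
theorem rho_ne (h : Ptw B J) : (J *ᵥ bh B) 0 ≠ 0 := by
  intro h0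
  by_cases hb : bh B = 0
  · have e1 : B 2 3 = 0 := by simpa [bh] using congrFun hb 1
    have e2 : B 3 1 = 0 := by simpa [bh] using congrFun hb 2
    have e3 : B 1 2 = 0 := by simpa [bh] using congrFun hb 3
    have hall : ∀ v w, ev B v w = 0 := fun v w => by rw [ev_B h.z h.anti, e1, e2, e3]; ring
    obtain ⟨x, hx, hx1, hx0⟩ : ∃ x : R4, x 0 = 0 ∧ (J *ᵥ x) 0 = 0 ∧ x ≠ 0 := by
      by_cases h1 : J 0 1 = 0
      · refine ⟨Pi.single 1 1, by simp, by simp [Matrix.mulVec, dotProduct, Fin.sum_univ_four, h1],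
          ?_⟩
        intro hc
        have := congrFun hc 1
        simp at this
      · refine ⟨![0, J 0 2, -J 0 1, 0], rfl, ?_, ?_⟩
        · simp only [Matrix.mulVec, dotProduct, Fin.sum_univ_four, Matrix.cons_val]
          ring
        · intro hc
          have := congrFun hc 2
          simp only [Matrix.cons_val, Pi.zero_apply, neg_eq_zero] at this
          exact h1 this
    have := h.pos x hx hx1 hx0
    rw [hall] at this
    exact lt_irrefl _ this
  · have := h.pos _ bh_zero h0 hb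
    rw [ev_bh h.z h.anti] at this
    exact lt_irrefl _ this

/-- a two-form on the complex line is `J`-invariant -/
theorem ev_inv (h : Ptw B J) (x y : R4) (hx : x 0 = 0) (hx1 : (J *ᵥ x) 0 = 0) (hy : y 0 = 0)
    (hy1 : (J *ᵥ y) 0 = 0) : ev B (J *ᵥ x) (J *ᵥ y) = ev B x y := by
  by_cases h0 : x = 0
  · subst h0
    rw [Matrix.mulVec_zero]
    simp [ev]
  have hp := h.pos x hx hx1 h0
  obtain ⟨D, hD⟩ := cramer h.z h.anti x y (J *ᵥ x) hx hy hx1
  have hJD := congrArg (fun v => J *ᵥ v) hD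
  simp only [Matrix.mulVec_add, Matrix.mulVec_smul, JJ h.sq] at hJD
  have hc := congrFun hJD 0
  simp only [Pi.add_apply, Pi.smul_apply, Pi.neg_apply, smul_eq_mul, hx, hx1, hy1, neg_zero,
    mul_zero, add_zero] at hc
  have hD0 : D = 0 := by
    rcases mul_eq_zero.1 hc.symm with h' | h'
    · exact h'
    · exact absurd h' (rho_ne h)
  rw [hD0, zero_smul] at hJD
  have hf := congrArg (fun v => ev B (J *ᵥ x) v) hJD
  simp only [ev_add_right, ev_smul_right, ev_neg_right] at hf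
  have hz0 : ev B (J *ᵥ x) 0 = 0 := by simp [ev]
  have huu : ev B (J *ᵥ x) (J *ᵥ x) = 0 := by
    have := ev_anti h.z h.anti (J *ᵥ x) (J *ᵥ x); linarith
  rw [hz0, huu] at hf
  have hxy := ev_anti h.z h.anti (J *ᵥ x) x
  rw [hxy] at hf
  have hf2 : ev B x (J *ᵥ x) * (ev B x y - ev B (J *ᵥ x) (J *ᵥ y)) = 0 := by linear_combination hf
  rcases mul_eq_zero.1 hf2 with h' | h'
  · exact absurd h' hp.ne'
  · linarith

/-- the projection to the complex line -/
noncomputable def pr (B J : M4) : M4 :=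
  1 + (-(J *ᵥ bh B) 0)⁻¹ • (Matrix.vecMulVec (J *ᵥ bh B) (Pi.single 0 1)
    + Matrix.vecMulVec (bh B) (J 0))

theorem pr_apply (B J : M4) (v : R4) :
    pr B J *ᵥ v = v + (-(J *ᵥ bh B) 0)⁻¹ • (v 0 • (J *ᵥ bh B) + (J *ᵥ v) 0 • bh B) := by
  unfold pr
  rw [Matrix.add_mulVec, Matrix.one_mulVec, Matrix.smul_mulVec, Matrix.add_mulVec]
  congr 2
  congr 1
  · funext i
    simp [Matrix.mulVec, Matrix.vecMulVec, dotProduct, Fin.sum_univ_four, mul_comm]
  · funext i
    simp only [Matrix.mulVec, Matrix.vecMulVec, dotProduct, Fin.sum_univ_four, Pi.smul_apply,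
      smul_eq_mul, Matrix.of_apply]
    ring

/-- the matrix of the two-form `η` -/
def eta (J : M4) : M4 :=
  Matrix.vecMulVec (J 0) (Pi.single 0 1) - Matrix.vecMulVec (Pi.single 0 1) (J 0)

theorem ev_eta (J : M4) (v w : R4) : ev (eta J) v w = (J *ᵥ v) 0 * w 0 - v 0 * (J *ᵥ w) 0 := by
  simp only [ev, eta, Matrix.sub_apply, Matrix.vecMulVec_apply, Matrix.mulVec, dotProduct,
    Fin.sum_univ_four, Pi.single_eq_same]
  simp
  ring

/-- the compatible form at a point -/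
noncomputable def cf (B J : M4) : M4 := (pr B J)ᵀ * B * pr B J + eta J

theorem ev_addM (M N : M4) (v w : R4) : ev (M + N) v w = ev M v w + ev N v w := by
  simp only [ev, Fin.sum_univ_four, Matrix.add_apply]; ring

theorem ev_cf (B J : M4) (v w : R4) :
    ev (cf B J) v w = ev B (pr B J *ᵥ v) (pr B J *ᵥ w) + ((J *ᵥ v) 0 * w 0 - v 0 * (J *ᵥ w) 0) := by
  unfold cf
  rw [ev_addM, ev_conj, ev_eta]

theorem pr_zero (h : Ptw B J) (v : R4) : (pr B J *ᵥ v) 0 = 0 := by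
  have hr := rho_ne h
  rw [pr_apply]
  simp only [Pi.add_apply, Pi.smul_apply, smul_eq_mul, bh_zero]
  field_simp
  ring

theorem pr_J (h : Ptw B J) (v : R4) : pr B J *ᵥ (J *ᵥ v) = J *ᵥ (pr B J *ᵥ v) := by
  rw [pr_apply, pr_apply, Matrix.mulVec_add, Matrix.mulVec_smul, Matrix.mulVec_add,
    Matrix.mulVec_smul, Matrix.mulVec_smul, JJ h.sq, JJ h.sq]
  congr 2
  rw [Pi.neg_apply, neg_smul, smul_neg, add_comm]

theorem pr_one (h : Ptw B J) (v : R4) : (J *ᵥ (pr B J *ᵥ v)) 0 = 0 := by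
  rw [← pr_J h]; exact pr_zero h _

theorem cf_inv (h : Ptw B J) (v w : R4) :
    ev (cf B J) (J *ᵥ v) (J *ᵥ w) = ev (cf B J) v w := by
  rw [ev_cf, ev_cf, pr_J h, pr_J h, ev_inv h _ _ (pr_zero h v) (pr_one h v) (pr_zero h w)
    (pr_one h w), JJ h.sq, JJ h.sq]
  simp only [Pi.neg_apply]
  ring

theorem cf_pos (h : Ptw B J) (v : R4) (hv : v ≠ 0) : 0 < ev (cf B J) v (J *ᵥ v) := by
  rw [ev_cf, pr_J h, JJ h.sq]
  simp only [Pi.neg_apply]
  by_cases h0 : pr B J *ᵥ v = 0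
  · rw [h0]
    have e0 : ev B 0 (J *ᵥ (0 : R4)) = 0 := by simp [ev]
    rw [e0, zero_add]
    by_contra hc
    have h1 : (J *ᵥ v) 0 = 0 := by nlinarith [sq_nonneg ((J *ᵥ v) 0), sq_nonneg (v 0)]
    have h2 : v 0 = 0 := by nlinarith [sq_nonneg ((J *ᵥ v) 0), sq_nonneg (v 0)]
    rw [pr_apply, h1, h2] at h0
    simp at h0
    exact hv h0
  · have := h.pos _ (pr_zero h v) (pr_one h v) h0
    nlinarith [sq_nonneg ((J *ᵥ v) 0), sq_nonneg (v 0)]

/-- the fibre components -/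
theorem cf_fibre (hz : ∀ j, B 0 j = 0) (ha : ∀ i j, B i j = -B j i) (v w : R4) (hv : v 0 = 0)
    (hw : w 0 = 0) : ev (cf B J) v w = ev B v w := by
  rw [ev_cf, pr_apply, pr_apply, hv, hw]
  simp only [zero_smul, zero_add, mul_zero, zero_mul, sub_zero, add_zero, ev_add_left,
    ev_add_right, ev_smul_left, ev_smul_right, ev_bh hz ha, ev_bh' hz ha]

theorem cf_anti (hz : ∀ j, B 0 j = 0) (ha : ∀ i j, B i j = -B j i) (v w : R4) :
    ev (cf B J) v w = -ev (cf B J) w v := by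
  rw [ev_cf, ev_cf, ev_anti hz ha]; ring

end Vale.Agent.P204
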