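import Vale.Agent.P204.Defs

namespace Vale.Agent.P204

open MeasureTheory Set
open scoped ContDiff Matrix

/-- one component of the divergence theorem -/
theorem box_pd (m : Fin 4) (g : R4 → ℝ) (hg : ContDiff ℝ ∞ g) (a b : R4) (hab : a ≤ b) :
    ∫ z in Icc a b, pd m g z =
      (∫ x in Icc (a ∘ m.succAbove) (b ∘ m.succAbove), g (m.insertNth (b m) x)) -
        ∫ x in Icc (a ∘ m.succAbove) (b ∘ m.succAbove), g (m.insertNth (a m) x) := by
  classical
  have hd : ∀ z, HasFDerivAt g (fderiv ℝ g z) z := fun z =>
    (hg.differentiable (by simp) z).hasFDerivAt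
  have hc : Continuous fun z => pd m g z :=
    (hg.continuous_fderiv (by simp)).clm_apply continuous_const
  have key := integral_divergence_of_hasFDerivAt_off_countable' (E := ℝ) (n := 3) a b hab
    (fun i => if i = m then g else 0) (fun i z => if i = m then fderiv ℝ g z else 0) ∅
    countable_empty
    (fun i => by
      by_cases h : i = m
      · simp only [h, if_true]; exact hg.continuous.continuousOn
      · simp only [h, if_false]; exact continuousOn_const)
    (fun z _ i => by
      by_cases h : i = m
      · simp only [h, if_true]; exact hd z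
      · simp only [h, if_false]; exact hasFDerivAt_const (0 : ℝ) z)
    (by
      have : (fun z : R4 => ∑ i : Fin 4,
          (if i = m then fderiv ℝ g z else 0) (Pi.single i (1 : ℝ))) = fun z => pd m g z := by
        funext z
        rw [Finset.sum_eq_single m]
        · simp [pd]
        · intro i _ hi; simp [hi]
        · simp
      rw [this]
      exact hc.continuousOn.integrableOn_compact isCompact_Icc)
  have e1 : ∀ z : R4, (∑ i : Fin 4,
      (if i = m then fderiv ℝ g z else 0) (Pi.single i (1 : ℝ))) = pd m g z := by
    intro z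
    rw [Finset.sum_eq_single m]
    · simp [pd]
    · intro i _ hi; simp [hi]
    · simp
  simp only [e1] at key
  rw [key, Finset.sum_eq_single m]
  · simp
  · intro i _ hi; simp [hi]
  · simp

/-- the fibre integral of the fibre components of a closed periodic two-form is constant -/
theorem avg_const {A : Matrix (Fin 3) (Fin 3) ℤ} {om : R4 → M4} (h : IsSymplectic A om) (j k : Fin 3)
    (s t : ℝ) (hst : s ≤ t) :
    ∫ x in Icc (0 : Fin 3 → ℝ) 1, om (Fin.cons s x) j.succ k.succ =
      ∫ x in Icc (0 : Fin 3 → ℝ) 1, om (Fin.cons t x) j.succ k.succ := by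
  have hab : (Fin.cons s 0 : R4) ≤ Fin.cons t 1 := by
    intro i
    refine Fin.cases ?_ (fun i => ?_) i
    · simpa using hst
    · simp
  have hint : ∀ (m a b : Fin 4), IntegrableOn (fun z => pd m (fun z => om z a b) z)
      (Icc (Fin.cons s 0 : R4) (Fin.cons t 1)) := fun m a b =>
    (((h.form.smooth a b).continuous_fderiv (by simp)).clm_apply
      continuous_const).continuousOn.integrableOn_compact isCompact_Icc
  have hz : ∀ (m : Fin 3) (a b : Fin 4),
      ∫ z in Icc (Fin.cons s 0 : R4) (Fin.cons t 1), pd m.succ (fun z => om z a b) z = 0 := by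
    intro m a b
    rw [box_pd _ _ (h.form.smooth a b) _ _ hab, sub_eq_zero]
    congr 1
    funext x
    have e : (m.succ.insertNth ((Fin.cons t 1 : R4) m.succ) x : R4) =
        m.succ.insertNth ((Fin.cons s 0 : R4) m.succ) x + Pi.single m.succ 1 := by
      funext i
      by_cases hi : i = m.succ
      · subst hi
        simp
      · obtain ⟨i', rfl⟩ := Fin.exists_succAbove_eq hi
        simp
    rw [e, h.form.trans]
  have h0 : ∫ z in Icc (Fin.cons s 0 : R4) (Fin.cons t 1), pd 0 (fun z => om z j.succ k.succ) z
      = 0 := by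
    have hsum : ∫ z in Icc (Fin.cons s 0 : R4) (Fin.cons t 1),
        (pd 0 (fun z => om z j.succ k.succ) z + pd j.succ (fun z => om z k.succ 0) z +
          pd k.succ (fun z => om z 0 j.succ) z) = 0 := by
      simp only [h.closed]
      simp
    have e1 := integral_add (μ := volume.restrict (Icc (Fin.cons s 0 : R4) (Fin.cons t 1)))
      (f := fun z => pd 0 (fun z => om z j.succ k.succ) z + pd j.succ (fun z => om z k.succ 0) z)
      (g := fun z => pd k.succ (fun z => om z 0 j.succ) z)
      ((hint 0 j.succ k.succ).add (hint j.succ k.succ 0)) (hint k.succ 0 j.succ)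
    have e2 := integral_add (μ := volume.restrict (Icc (Fin.cons s 0 : R4) (Fin.cons t 1)))
      (f := fun z => pd 0 (fun z => om z j.succ k.succ) z)
      (g := fun z => pd j.succ (fun z => om z k.succ 0) z)
      (hint 0 j.succ k.succ) (hint j.succ k.succ 0)
    have e3 := hz j k.succ 0
    have e4 := hz k 0 j.succ
    linarith
  rw [box_pd _ _ (h.form.smooth _ _) _ _ hab, sub_eq_zero] at h0
  have ea : ((Fin.cons s 0 : R4) ∘ (0 : Fin 4).succAbove) = (0 : Fin 3 → ℝ) := by
    funext i; simp
  have eb : ((Fin.cons t 1 : R4) ∘ (0 : Fin 4).succAbove) = (1 : Fin 3 → ℝ) := by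
    funext i; simp
  rw [ea, eb] at h0
  simpa [Fin.insertNth_zero'] using h0.symm

end Vale.Agent.P204
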