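import Mathlib

/-!
# P204: almost complex structures on `T³`-bundles over the circle — definitions

For `A ∈ GL₃(ℤ)` let `X_A` be the mapping torus of the linear automorphism of `T³ = ℝ³/ℤ³` given by
`A`; this is the closed manifold `ℝ⁴ / Γ_A`, where `Γ_A` is generated by the unit translations in the
coordinates `1, 2, 3` and by `τ_A (t, x) = (t + 1, A x)`.  Tensors on `X_A` are `Γ_A`-invariant tensors
on `ℝ⁴`.  `A = 1` gives the four-torus.
-/

namespace Vale.Agent.P204

open scoped ContDiff Matrix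

/-- the universal cover; the coordinate `0` is the base coordinate -/
abbrev R4 := Fin 4 → ℝ

abbrev M4 := Matrix (Fin 4) (Fin 4) ℝ

/-- partial derivative -/
noncomputable def pd (i : Fin 4) (f : R4 → ℝ) (z : R4) : ℝ := fderiv ℝ f z (Pi.single i 1)

/-- the value `om(v, w) = ∑ v_i om_ij w_j` of the bilinear form with matrix `om` -/
def ev (om : M4) (v w : R4) : ℝ := ∑ i, ∑ j, v i * om i j * w j

/-- the linear part `1 ⊕ A` of `τ_A` -/
def lin (A : Matrix (Fin 3) (Fin 3) ℤ) : M4 :=
  Matrix.of (Fin.cons (Fin.cons 1 0) fun i => Fin.cons 0 fun j => (A i j : ℝ))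

/-- the deck transformation `τ_A (t, x) = (t + 1, A x)` -/
def tau (A : Matrix (Fin 3) (Fin 3) ℤ) (z : R4) : R4 := lin A *ᵥ z + Pi.single 0 1

/-- a smooth two-form on `X_A`, with `om z i j = om_z(∂_i, ∂_j)` -/
structure IsTwoForm (A : Matrix (Fin 3) (Fin 3) ℤ) (om : R4 → M4) : Prop where
  smooth : ∀ i j, ContDiff ℝ ∞ fun z => om z i j
  anti : ∀ z i j, om z i j = -om z j i
  trans : ∀ z, ∀ i : Fin 3, om (z + Pi.single i.succ 1) = om z
  mono : ∀ z v w, ev (om (tau A z)) (lin A *ᵥ v) (lin A *ᵥ w) = ev (om z) v w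

/-- a symplectic form on `X_A`: closed and nondegenerate -/
structure IsSymplectic (A : Matrix (Fin 3) (Fin 3) ℤ) (om : R4 → M4) : Prop where
  form : IsTwoForm A om
  closed : ∀ z i j k, pd i (fun z => om z j k) z + pd j (fun z => om z k i) z +
    pd k (fun z => om z i j) z = 0
  nondeg : ∀ z v, v ≠ 0 → ∃ w, ev (om z) v w ≠ 0

/-- a smooth almost complex structure on `X_A` -/
structure IsAlmostComplex (A : Matrix (Fin 3) (Fin 3) ℤ) (J : R4 → M4) : Prop where
  smooth : ∀ i j, ContDiff ℝ ∞ fun z => J z i j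
  sq : ∀ z, J z * J z = -1
  trans : ∀ z, ∀ i : Fin 3, J (z + Pi.single i.succ 1) = J z
  mono : ∀ z, J (tau A z) * lin A = lin A * J z

/-- invariance under all translations along the fibres `T³` -/
def FibreInvariant (J : R4 → M4) : Prop := ∀ z s : R4, s 0 = 0 → J (z + s) = J z

/-- `om` tames `J` -/
def Tames (om J : R4 → M4) : Prop := ∀ z v, v ≠ 0 → 0 < ev (om z) v (J z *ᵥ v)

/-- `om` is compatible with `J` -/
def Compatible (om J : R4 → M4) : Prop :=
  Tames om J ∧ ∀ z v w, ev (om z) (J z *ᵥ v) (J z *ᵥ w) = ev (om z) v w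

end Vale.Agent.P204
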