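import Vale.Agent.P204.Defs

namespace Vale.Agent.P204

open MeasureTheory Set
open scoped ContDiff Matrix

/-- the real matrix of an integral matrix -/
def rm (A : Matrix (Fin 3) (Fin 3) ℤ) : Matrix (Fin 3) (Fin 3) ℝ := A.map (Int.castRingHom ℝ)

theorem rm_mul (A B : Matrix (Fin 3) (Fin 3) ℤ) : rm (A * B) = rm A * rm B := by
  unfold rm; exact Matrix.map_mul

theorem rm_one : rm 1 = 1 := by
  unfold rm; exact Matrix.map_one _ (map_zero _) (map_one _)

theorem rm_inv {A : Matrix (Fin 3) (Fin 3) ℤ} (hA : IsUnit A.det) :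
    rm A * rm A⁻¹ = 1 ∧ rm A⁻¹ * rm A = 1 := by
  rw [← rm_mul, ← rm_mul, Matrix.mul_nonsing_inv _ hA, Matrix.nonsing_inv_mul _ hA, rm_one]
  exact ⟨rfl, rfl⟩

theorem rm_det {A : Matrix (Fin 3) (Fin 3) ℤ} (hA : IsUnit A.det) : |(rm A).det| = 1 := by
  have h : (rm A).det = ((A.det : ℤ) : ℝ) := by
    unfold rm
    exact ((Int.castRingHom ℝ).map_det A).symm
  rw [h]
  rcases Int.isUnit_iff.1 hA with h | h <;> rw [h] <;> simp

/-- the lattice `ℤ³` -/
noncomputable abbrev L3 : Submodule ℤ (Fin 3 → ℝ) :=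
  Submodule.span ℤ (Set.range (Pi.basisFun ℝ (Fin 3)))

theorem rm_mem (B : Matrix (Fin 3) (Fin 3) ℤ) (x : Fin 3 → ℝ) (hx : x ∈ L3) : rm B *ᵥ x ∈ L3 := by
  induction hx using Submodule.span_induction with
  | mem x h =>
    obtain ⟨j, rfl⟩ := h
    have e : rm B *ᵥ (Pi.basisFun ℝ (Fin 3) j) = ∑ i, (B i j) • (Pi.basisFun ℝ (Fin 3) i) := by
      funext k
      simp [rm, Finset.sum_apply, Pi.single_apply]
    rw [e]
    exact Submodule.sum_mem _ fun i _ => Submodule.smul_mem _ _ (Submodule.subset_span ⟨i, rfl⟩)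
  | zero => rw [Matrix.mulVec_zero]; exact Submodule.zero_mem _
  | add x y _ _ hx hy => rw [Matrix.mulVec_add]; exact Submodule.add_mem _ hx hy
  | smul a x _ hx =>
    have : rm B *ᵥ (a • x) = a • (rm B *ᵥ x) := by
      rw [← Int.cast_smul_eq_zsmul ℝ, ← Int.cast_smul_eq_zsmul ℝ, Matrix.mulVec_smul]
    rw [this]
    exact Submodule.smul_mem _ _ hx

/-- the automorphism of `ℝ³` -/
noncomputable def unimE {A : Matrix (Fin 3) (Fin 3) ℤ} (hA : IsUnit A.det) :
    (Fin 3 → ℝ) ≃ₗ[ℝ] (Fin 3 → ℝ) :=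
  LinearEquiv.ofLinearMap (Matrix.toLin' (rm A)) (Matrix.toLin' (rm A⁻¹))
    (by rw [← Matrix.toLin'_mul, (rm_inv hA).1, Matrix.toLin'_one])
    (by rw [← Matrix.toLin'_mul, (rm_inv hA).2, Matrix.toLin'_one])

theorem unimE_apply {A : Matrix (Fin 3) (Fin 3) ℤ} (hA : IsUnit A.det) (x : Fin 3 → ℝ) :
    unimE hA x = rm A *ᵥ x := rfl

theorem unimE_symm_apply {A : Matrix (Fin 3) (Fin 3) ℤ} (hA : IsUnit A.det) (x : Fin 3 → ℝ) :
    (unimE hA).symm x = rm A⁻¹ *ᵥ x := rfl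

theorem unim_lattice {A : Matrix (Fin 3) (Fin 3) ℤ} (hA : IsUnit A.det) :
    Submodule.span ℤ (Set.range ((Pi.basisFun ℝ (Fin 3)).map (unimE hA))) = L3 := by
  rw [← ZSpan.map]
  apply le_antisymm
  · rintro _ ⟨x, hx, rfl⟩
    exact rm_mem A x hx
  · intro x hx
    refine ⟨(unimE hA).symm x, rm_mem _ x hx, ?_⟩
    exact (unimE hA).apply_symm_apply x

theorem unim_mp {A : Matrix (Fin 3) (Fin 3) ℤ} (hA : IsUnit A.det) :
    MeasurePreserving (fun x : Fin 3 → ℝ => unimE hA x) volume volume := by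
  refine ⟨(unimE hA).toContinuousLinearEquiv.continuous.measurable, ?_⟩
  have h0 : (rm A).det ≠ 0 := by
    intro h; have := rm_det hA; rw [h] at this; simp at this
  have := Real.map_matrix_volume_pi_eq_smul_volume_pi h0
  have e : |((rm A).det)⁻¹| = 1 := by rw [abs_inv, rm_det hA, inv_one]
  rw [e, ENNReal.ofReal_one, one_smul] at this
  exact this

theorem unim_integral {A : Matrix (Fin 3) (Fin 3) ℤ} (hA : IsUnit A.det) (g : (Fin 3 → ℝ) → ℝ)
    (hg : ∀ x, ∀ i : Fin 3, g (x + Pi.single i 1) = g x) :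
    ∫ x in Icc (0 : Fin 3 → ℝ) 1, g (rm A *ᵥ x) = ∫ x in Icc (0 : Fin 3 → ℝ) 1, g x := by
  let per : AddSubgroup (Fin 3 → ℝ) :=
    { carrier := {p | ∀ x, g (p + x) = g x}
      zero_mem' := fun x => by rw [zero_add]
      add_mem' := fun {p q} hp hq x => by rw [add_assoc, hp, hq]
      neg_mem' := fun {p} hp x => by
        have := hp (-p + x)
        rw [add_neg_cancel_left] at this
        exact this.symm }
  have hper : L3 ≤ AddSubgroup.toIntSubmodule per := by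
    rw [Submodule.span_le]
    rintro _ ⟨i, rfl⟩ x
    rw [add_comm, Pi.basisFun_apply]
    exact hg x i
  have hA1 : IsAddFundamentalDomain L3.toAddSubgroup
      (ZSpan.fundamentalDomain (Pi.basisFun ℝ (Fin 3))) volume := ZSpan.isAddFundamentalDomain' _ _
  have hA2 : IsAddFundamentalDomain L3.toAddSubgroup
      (ZSpan.fundamentalDomain ((Pi.basisFun ℝ (Fin 3)).map (unimE hA))) volume := by
    have := ZSpan.isAddFundamentalDomain' ((Pi.basisFun ℝ (Fin 3)).map (unimE hA)) volume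
    rwa [unim_lattice] at this
  have hinv : ∀ (p : L3.toAddSubgroup) (x : Fin 3 → ℝ), g (p +ᵥ x) = g x := fun p x =>
    hper p.2 x
  have hcount : Countable L3.toAddSubgroup := inferInstanceAs (Countable L3)
  have key := hA1.setIntegral_eq hA2 hinv
  have hIcc : ∀ f : (Fin 3 → ℝ) → ℝ, ∫ x in ZSpan.fundamentalDomain (Pi.basisFun ℝ (Fin 3)), f x =
      ∫ x in Icc (0 : Fin 3 → ℝ) 1, f x := by
    intro f
    rw [ZSpan.fundamentalDomain_pi_basisFun]
    exact setIntegral_congr_set (Measure.univ_pi_Ico_ae_eq_Icc (f := (0 : Fin 3 → ℝ)) (g := 1))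
  rw [← hIcc, ← hIcc, key, ← ZSpan.map_fundamentalDomain]
  have he : MeasurableEmbedding fun x : Fin 3 → ℝ => unimE hA x :=
    (unimE hA).toContinuousLinearEquiv.toHomeomorph.measurableEmbedding
  exact ((unim_mp hA).setIntegral_image_emb he g _).symm

end Vale.Agent.P204
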