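import Vale.Agent.P204.Avg
import Vale.Agent.P204.Unim
import Vale.Agent.P204.Alg

namespace Vale.Agent.P204

open MeasureTheory Set
open scoped ContDiff Matrix

/-! ### the averaged fibre part -/

/-- fibre average of the fibre components -/
noncomputable def avg (om : R4 → M4) : M4 :=
  Matrix.of (Fin.cons 0 fun i => Fin.cons 0 fun j =>
    ∫ x in Icc (0 : Fin 3 → ℝ) 1, om (Fin.cons 0 x) i.succ j.succ)

theorem avg_z (om : R4 → M4) (j : Fin 4) : avg om 0 j = 0 := rfl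

theorem avg_z' (om : R4 → M4) (i : Fin 3) : avg om i.succ 0 = 0 := rfl

theorem avg_succ (om : R4 → M4) (i j : Fin 3) : avg om i.succ j.succ =
    ∫ x in Icc (0 : Fin 3 → ℝ) 1, om (Fin.cons 0 x) i.succ j.succ := rfl

theorem avg_anti {A : Matrix (Fin 3) (Fin 3) ℤ} {om : R4 → M4} (h : IsSymplectic A om) (i j : Fin 4) :
    avg om i j = -avg om j i := by
  refine Fin.cases ?_ (fun i => ?_) i
  · refine Fin.cases ?_ (fun j => ?_) j
    · simp [avg_z]
    · simp [avg_z, avg_z']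
  · refine Fin.cases ?_ (fun j => ?_) j
    · simp [avg_z, avg_z']
    · rw [avg_succ, avg_succ, ← integral_neg]
      congr 1
      funext x
      exact h.form.anti _ _ _

theorem avg_t {A : Matrix (Fin 3) (Fin 3) ℤ} {om : R4 → M4} (h : IsSymplectic A om) (t : ℝ)
    (i j : Fin 3) :
    avg om i.succ j.succ = ∫ x in Icc (0 : Fin 3 → ℝ) 1, om (Fin.cons t x) i.succ j.succ := by
  rw [avg_succ]
  rcases le_total 0 t with ht | ht
  · exact avg_const h i j 0 t ht
  · exact (avg_const h i j t 0 ht).symm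

theorem cons_cont (t : ℝ) : Continuous fun x : Fin 3 → ℝ => (Fin.cons t x : R4) := by
  refine continuous_pi fun i => ?_
  refine Fin.cases ?_ (fun i => ?_) i
  · simp only [Fin.cons_zero]; exact continuous_const
  · simp only [Fin.cons_succ]; exact continuous_apply i

theorem om_cont {A : Matrix (Fin 3) (Fin 3) ℤ} {om : R4 → M4} (h : IsSymplectic A om) (t : ℝ)
    (i j : Fin 4) : Continuous fun x : Fin 3 → ℝ => om (Fin.cons t x) i j :=
  (h.form.smooth i j).continuous.comp (cons_cont t)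

theorem ev_cont {A : Matrix (Fin 3) (Fin 3) ℤ} {om : R4 → M4} (h : IsSymplectic A om) (t : ℝ)
    (v w : R4) : Continuous fun x : Fin 3 → ℝ => ev (om (Fin.cons t x)) v w := by
  unfold ev
  refine continuous_finsetSum _ fun i _ => continuous_finsetSum _ fun j _ => ?_
  exact (continuous_const.mul (om_cont h t i j)).mul continuous_const

theorem ev_avg {A : Matrix (Fin 3) (Fin 3) ℤ} {om : R4 → M4} (h : IsSymplectic A om) (t : ℝ)
    (v w : R4) (hv : v 0 = 0) (hw : w 0 = 0) :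
    ev (avg om) v w = ∫ x in Icc (0 : Fin 3 → ℝ) 1, ev (om (Fin.cons t x)) v w := by
  have hi : ∀ i j : Fin 4, IntegrableOn (fun x => v i * om (Fin.cons t x) i j * w j)
      (Icc (0 : Fin 3 → ℝ) 1) := fun i j =>
    ((continuous_const.mul (om_cont h t i j)).mul
      continuous_const).continuousOn.integrableOn_compact isCompact_Icc
  unfold ev
  rw [integral_finsetSum _ fun i _ => integrable_finsetSum _ fun j _ => hi i j]
  refine Finset.sum_congr rfl fun i _ => ?_
  rw [integral_finsetSum _ fun j _ => hi i j]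
  refine Finset.sum_congr rfl fun j _ => ?_
  rw [integral_mul_const, integral_const_mul]
  refine Fin.cases ?_ (fun i => ?_) i
  · rw [hv]; ring
  · refine Fin.cases ?_ (fun j => ?_) j
    · rw [hw]; ring
    · rw [avg_t h t]

theorem J_dep {J : R4 → M4} (hJ : FibreInvariant J) (z w : R4) (h : z 0 = w 0) : J z = J w := by
  have := hJ w (z - w) (by simp [h])
  rw [← this]
  congr 1
  abel

theorem avg_ptw {A : Matrix (Fin 3) (Fin 3) ℤ} {J om : R4 → M4} (hJ : IsAlmostComplex A J)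
    (hf : FibreInvariant J) (h : IsSymplectic A om) (ht : Tames om J) (z : R4) :
    Ptw (avg om) (J z) where
  z := avg_z om
  anti := avg_anti h
  sq := hJ.sq z
  pos := by
    intro v hv hv1 hv0
    rw [ev_avg h (z 0) v _ hv hv1]
    have hpos : ∀ x : Fin 3 → ℝ, 0 < ev (om (Fin.cons (z 0) x)) v (J z *ᵥ v) := by
      intro x
      rw [J_dep hf z (Fin.cons (z 0) x) (by simp)]
      exact ht _ _ hv0
    have hint : IntegrableOn (fun x => ev (om (Fin.cons (z 0) x)) v (J z *ᵥ v))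
        (Icc (0 : Fin 3 → ℝ) 1) :=
      (ev_cont h (z 0) v _).continuousOn.integrableOn_compact isCompact_Icc
    rw [setIntegral_pos_iff_support_of_nonneg_ae (ae_of_all _ fun x => (hpos x).le) hint]
    have hs : Function.support (fun x => ev (om (Fin.cons (z 0) x)) v (J z *ᵥ v)) = univ :=
      eq_univ_of_forall fun x => (hpos x).ne'
    rw [hs, univ_inter, Real.volume_Icc_pi]
    simp

/-! ### the monodromy -/

theorem lin_zero (A : Matrix (Fin 3) (Fin 3) ℤ) (v : R4) : (lin A *ᵥ v) 0 = v 0 := by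
  simp [lin, Matrix.mulVec, dotProduct, Fin.sum_univ_succ]

theorem lin_succ (A : Matrix (Fin 3) (Fin 3) ℤ) (v : R4) (i : Fin 3) :
    (lin A *ᵥ v) i.succ = (rm A *ᵥ Fin.tail v) i := by
  simp [lin, rm, Matrix.mulVec, dotProduct, Fin.sum_univ_succ, Fin.tail]

theorem lin_cons (A : Matrix (Fin 3) (Fin 3) ℤ) (t : ℝ) (x : Fin 3 → ℝ) :
    lin A *ᵥ (Fin.cons t x : R4) = Fin.cons t (rm A *ᵥ x) := by
  funext i
  refine Fin.cases ?_ (fun i => ?_) i
  · rw [lin_zero]; rfl
  · rw [lin_succ, Fin.tail_cons, Fin.cons_succ]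

theorem tau_cons (A : Matrix (Fin 3) (Fin 3) ℤ) (t : ℝ) (x : Fin 3 → ℝ) :
    tau A (Fin.cons t x : R4) = Fin.cons (t + 1) (rm A *ᵥ x) := by
  unfold tau
  rw [lin_cons]
  funext i
  refine Fin.cases ?_ (fun i => ?_) i
  · simp
  · simp

theorem lin_inv {A : Matrix (Fin 3) (Fin 3) ℤ} (hA : IsUnit A.det) (v : R4) :
    lin A *ᵥ (lin A⁻¹ *ᵥ v) = v := by
  have hv : v = Fin.cons (v 0) (Fin.tail v) := (Fin.cons_self_tail v).symm
  rw [hv, lin_cons, lin_cons, Matrix.mulVec_mulVec, (rm_inv hA).1, Matrix.one_mulVec]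

theorem lin_inv' {A : Matrix (Fin 3) (Fin 3) ℤ} (hA : IsUnit A.det) (v : R4) :
    lin A⁻¹ *ᵥ (lin A *ᵥ v) = v := by
  have hv : v = Fin.cons (v 0) (Fin.tail v) := (Fin.cons_self_tail v).symm
  rw [hv, lin_cons, lin_cons, Matrix.mulVec_mulVec, (rm_inv hA).2, Matrix.one_mulVec]

theorem avg_lin {A : Matrix (Fin 3) (Fin 3) ℤ} (hA : IsUnit A.det) {om : R4 → M4}
    (h : IsSymplectic A om) (v w : R4) (hv : v 0 = 0) (hw : w 0 = 0) :
    ev (avg om) (lin A *ᵥ v) (lin A *ᵥ w) = ev (avg om) v w := by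
  rw [ev_avg h 0 v w hv hw, ev_avg h 1 _ _ (by rw [lin_zero, hv]) (by rw [lin_zero, hw])]
  have e : ∀ x : Fin 3 → ℝ, ev (om (Fin.cons 0 x)) v w =
      ev (om (Fin.cons 1 (rm A *ᵥ x))) (lin A *ᵥ v) (lin A *ᵥ w) := by
    intro x
    rw [← h.form.mono (Fin.cons 0 x) v w, tau_cons, zero_add]
  simp only [e]
  refine (unim_integral hA (fun y => ev (om (Fin.cons 1 y)) (lin A *ᵥ v) (lin A *ᵥ w)) ?_).symm
  intro x i
  have : (Fin.cons 1 (x + Pi.single i 1) : R4) = Fin.cons 1 x + Pi.single i.succ 1 := by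
    funext k
    refine Fin.cases ?_ (fun k => ?_) k
    · simp
    · by_cases hk : k = i
      · subst hk; simp
      · simp [hk]
  simp only [this, h.form.trans]

theorem exists_line {B J : M4} (_h : Ptw B J) : ∃ x : R4, x 0 = 0 ∧ (J *ᵥ x) 0 = 0 ∧ x ≠ 0 := by
  by_cases h1 : J 0 1 = 0
  · refine ⟨Pi.single 1 1, by simp, by simp [Matrix.mulVec, dotProduct, Fin.sum_univ_four, h1], ?_⟩
    intro hc
    have := congrFun hc 1
    simp at this
  · refine ⟨![0, J 0 2, -J 0 1, 0], rfl, ?_, ?_⟩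
    · simp only [Matrix.mulVec, dotProduct, Fin.sum_univ_four, Matrix.cons_val]
      ring
    · intro hc
      have := congrFun hc 2
      simp only [Matrix.cons_val, Pi.zero_apply, neg_eq_zero] at this
      exact h1 this

/-- the kernel vector is an eigenvector of the monodromy -/
theorem lin_bh {A : Matrix (Fin 3) (Fin 3) ℤ} (hA : IsUnit A.det) {B J : M4} (h : Ptw B J)
    (hB : ∀ v w : R4, v 0 = 0 → w 0 = 0 → ev B (lin A *ᵥ v) (lin A *ᵥ w) = ev B v w) :
    ∃ c : ℝ, c ≠ 0 ∧ lin A *ᵥ bh B = c • bh B := by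
  have hker : ∀ w : R4, w 0 = 0 → ev B (lin A *ᵥ bh B) w = 0 := by
    intro w hw
    have e := hB (bh B) (lin A⁻¹ *ᵥ w) bh_zero (by rw [lin_zero, hw])
    rw [lin_inv hA] at e
    rw [e, ev_bh h.z h.anti]
  obtain ⟨y, hy, hy1, hy0⟩ := exists_line h
  have hp := h.pos y hy hy1 hy0
  obtain ⟨D, hD⟩ := cramer h.z h.anti (lin A *ᵥ bh B) y (J *ᵥ y) (by rw [lin_zero, bh_zero]) hy hy1
  have e1 := hker y hy
  have e2 : ev B (J *ᵥ y) (lin A *ᵥ bh B) = 0 := by
    rw [ev_anti h.z h.anti, hker _ hy1, neg_zero]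
  rw [e1, e2, zero_smul, zero_smul, zero_add, add_zero] at hD
  have hb : lin A *ᵥ bh B = ((ev B y (J *ᵥ y))⁻¹ * D) • bh B := by
    rw [← smul_smul, ← hD, smul_smul, inv_mul_cancel₀ hp.ne', one_smul]
  refine ⟨_, ?_, hb⟩
  intro h0
  rw [h0, zero_smul] at hb
  have hz : bh B = 0 := by
    have := lin_inv' hA (bh B)
    rw [hb, Matrix.mulVec_zero] at this
    exact this.symm
  have := rho_ne h
  rw [hz, Matrix.mulVec_zero] at this
  exact this rfl

theorem cf_lin {A : Matrix (Fin 3) (Fin 3) ℤ} (hA : IsUnit A.det) {B J J' : M4} (h : Ptw B J)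
    (hB : ∀ v w : R4, v 0 = 0 → w 0 = 0 → ev B (lin A *ᵥ v) (lin A *ᵥ w) = ev B v w)
    (hJ' : J' * lin A = lin A * J) (v w : R4) :
    ev (cf B J') (lin A *ᵥ v) (lin A *ᵥ w) = ev (cf B J) v w := by
  obtain ⟨c, hc, hcb⟩ := lin_bh hA h hB
  have hJl : ∀ v : R4, J' *ᵥ (lin A *ᵥ v) = lin A *ᵥ (J *ᵥ v) := by
    intro v
    rw [Matrix.mulVec_mulVec, hJ', ← Matrix.mulVec_mulVec]
  have hJb : lin A *ᵥ (J *ᵥ bh B) = c • (J' *ᵥ bh B) := by
    rw [← hJl, hcb, Matrix.mulVec_smul]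
  have hJ0 : (J *ᵥ bh B) 0 = c * (J' *ᵥ bh B) 0 := by
    have := congrFun hJb 0
    rwa [lin_zero, Pi.smul_apply, smul_eq_mul] at this
  have hr' : (J' *ᵥ bh B) 0 ≠ 0 := by
    intro h0
    rw [h0, mul_zero] at hJ0
    exact rho_ne h hJ0
  have hpr : ∀ v : R4, pr B J' *ᵥ (lin A *ᵥ v) = lin A *ᵥ (pr B J *ᵥ v) := by
    intro v
    rw [pr_apply, pr_apply, Matrix.mulVec_add, Matrix.mulVec_smul, Matrix.mulVec_add,
      Matrix.mulVec_smul, Matrix.mulVec_smul, hJb, hcb, hJl, lin_zero, lin_zero, hJ0]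
    congr 1
    funext i
    simp only [Pi.add_apply, Pi.smul_apply, smul_eq_mul]
    field_simp
  rw [ev_cf, ev_cf, hpr, hpr, hB _ _ (pr_zero h v) (pr_zero h w), hJl, hJl, lin_zero, lin_zero,
    lin_zero, lin_zero]

/-! ### smoothness -/

/-- entrywise smoothness -/
def SM (X : R4 → M4) : Prop := ∀ i j, ContDiff ℝ ∞ fun z => X z i j

theorem SM.add {X Y : R4 → M4} (hX : SM X) (hY : SM Y) : SM fun z => X z + Y z := fun i j =>
  (hX i j).add (hY i j)

theorem SM.mul {X Y : R4 → M4} (hX : SM X) (hY : SM Y) : SM fun z => X z * Y z := fun i j => by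
  simp only [Matrix.mul_apply]
  exact ContDiff.sum fun k _ => (hX i k).mul (hY k j)

theorem SM.tr {X : R4 → M4} (hX : SM X) : SM fun z => (X z)ᵀ := fun i j => hX j i

theorem SM.const (M : M4) : SM fun _ => M := fun _ _ => contDiff_const

theorem mulVec_smooth {X : R4 → M4} (hX : SM X) (b : R4) (i : Fin 4) :
    ContDiff ℝ ∞ fun z => (X z *ᵥ b) i := by
  simp only [Matrix.mulVec, dotProduct]
  exact ContDiff.sum fun k _ => (hX i k).mul contDiff_const

theorem cf_smooth {J : R4 → M4} (hJ : SM J) (B : M4) (hr : ∀ z, (J z *ᵥ bh B) 0 ≠ 0) :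
    SM fun z => cf B (J z) := by
  have hpr : SM fun z => pr B (J z) := by
    unfold pr
    refine (SM.const 1).add fun i j => ?_
    simp only [Matrix.smul_apply, Matrix.add_apply, Matrix.vecMulVec_apply, smul_eq_mul]
    refine ContDiff.mul (ContDiff.inv ?_ fun z => ?_) (((mulVec_smooth hJ _ i).mul
      contDiff_const).add (contDiff_const.mul (hJ 0 j)))
    · exact (mulVec_smooth hJ _ 0).neg
    · exact neg_ne_zero.2 (hr z)
  have heta : SM fun z => eta (J z) := by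
    intro i j
    unfold eta
    simp only [Matrix.sub_apply, Matrix.vecMulVec_apply]
    exact ((hJ 0 i).mul contDiff_const).sub (contDiff_const.mul (hJ 0 j))
  exact ((hpr.tr.mul (SM.const B)).mul hpr).add heta

/-! ### closedness -/

theorem ev_single (M : M4) (i j : Fin 4) : ev M (Pi.single i 1) (Pi.single j 1) = M i j := by
  simp [ev, Pi.single_apply]

theorem pd_zero {f : R4 → ℝ} (hf : ContDiff ℝ ∞ f) (hd : ∀ z w : R4, z 0 = w 0 → f z = f w)
    (i : Fin 3) (z : R4) : pd i.succ f z = 0 := by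
  have h1 : HasLineDerivAt ℝ f (pd i.succ f z) z (Pi.single i.succ 1) :=
    (hf.differentiable (by simp) z).hasFDerivAt.hasLineDerivAt _
  have h2 : HasDerivAt (fun t : ℝ => f (z + t • Pi.single i.succ 1)) (pd i.succ f z) 0 := h1
  have h3 : (fun t : ℝ => f (z + t • Pi.single i.succ 1)) = fun _ => f z := by
    funext t
    exact hd _ _ (by simp)
  rw [h3] at h2
  exact h2.unique (hasDerivAt_const _ _)

theorem of_fibre {A : Matrix (Fin 3) (Fin 3) ℤ} (hA : IsUnit A.det) {J : R4 → M4}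
    (hJ : IsAlmostComplex A J) (hf : FibreInvariant J) {B : M4} (hp : ∀ z, Ptw B (J z))
    (hB : ∀ v w : R4, v 0 = 0 → w 0 = 0 → ev B (lin A *ᵥ v) (lin A *ᵥ w) = ev B v w) :
    ∃ om' : R4 → M4, IsSymplectic A om' ∧ Compatible om' J ∧
      ∀ z, ∀ i j : Fin 3, om' z i.succ j.succ = B i.succ j.succ := by
  have hz := (hp 0).z
  have ha := (hp 0).anti
  have hsm : SM fun z => cf B (J z) := cf_smooth hJ.smooth B fun z => rho_ne (hp z)
  have hdep : ∀ z w : R4, z 0 = w 0 → cf B (J z) = cf B (J w) := fun z w hzw => by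
    rw [J_dep hf z w hzw]
  have hanti : ∀ z i j, cf B (J z) i j = -cf B (J z) j i := fun z i j => by
    rw [← ev_single (cf B (J z)) i j, cf_anti hz ha, ev_single]
  have hfib : ∀ z (i j : Fin 3), cf B (J z) i.succ j.succ = B i.succ j.succ := fun z i j => by
    rw [← ev_single (cf B (J z)) i.succ j.succ, cf_fibre hz ha _ _ (by simp) (by simp), ev_single]
  have hpos : Tames (fun z => cf B (J z)) J := fun z v hv => cf_pos (hp z) v hv
  refine ⟨fun z => cf B (J z), ⟨⟨hsm, hanti, ?_, ?_⟩, ?_, ?_⟩, ⟨hpos, fun z v w => cf_inv (hp z) v w⟩,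
    hfib⟩
  · intro z i
    exact hdep _ _ (by simp)
  · intro z v w
    exact cf_lin hA (hp z) hB (hJ.mono z) v w
  · intro z
    have P1 : ∀ (i : Fin 3) (j k : Fin 4), pd i.succ (fun z => cf B (J z) j k) z = 0 :=
      fun i j k => pd_zero (hsm j k) (fun z w hzw => by simp only [hdep z w hzw]) i z
    have P2 : ∀ (i : Fin 4) (j k : Fin 3),
        pd i (fun z => cf B (J z) j.succ k.succ) z = 0 := fun i j k => by
      simp only [hfib]
      simp [pd]
    have P3 : ∀ i j k : Fin 4, pd i (fun z => cf B (J z) j k) z =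
        -pd i (fun z => cf B (J z) k j) z := fun i j k => by
      have : (fun z => cf B (J z) j k) = fun z => -cf B (J z) k j := funext fun z => hanti z j k
      rw [this]
      simp [pd, fderiv_fun_neg]
    have P4 : ∀ i : Fin 4, pd i (fun z => cf B (J z) 0 0) z = 0 := fun i => by
      have := P3 i 0 0; linarith
    intro i j k
    refine Fin.cases ?_ (fun i => ?_) i <;> refine Fin.cases ?_ (fun j => ?_) j <;>
      refine Fin.cases ?_ (fun k => ?_) k
    · simp only [P4, add_zero]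
    · have := P3 0 0 k.succ
      rw [P1, this]; ring
    · have := P3 0 j.succ 0
      rw [P1, this]; ring
    · rw [P2, P1, P1]; ring
    · have := P3 0 0 i.succ
      rw [P1, this]; ring
    · rw [P1, P2, P1]; ring
    · rw [P1, P1, P2]; ring
    · rw [P1, P1, P1]; ring
  · intro z v hv
    exact ⟨J z *ᵥ v, (hpos z v hv).ne'⟩

/-- from a taming form to a compatible form -/
theorem main {A : Matrix (Fin 3) (Fin 3) ℤ} (hA : IsUnit A.det) {J : R4 → M4}
    (hJ : IsAlmostComplex A J) (hf : FibreInvariant J) {om : R4 → M4} (h : IsSymplectic A om)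
    (ht : Tames om J) : ∃ om' : R4 → M4, IsSymplectic A om' ∧ Compatible om' J ∧
      ∀ z, ∀ i j : Fin 3, om' z i.succ j.succ =
        ∫ x in Icc (0 : Fin 3 → ℝ) 1, om (Fin.cons (z 0) x) i.succ j.succ := by
  obtain ⟨om', h1, h2, h3⟩ := of_fibre hA hJ hf (avg_ptw hJ hf h ht)
    (fun v w hv hw => avg_lin hA h v w hv hw)
  exact ⟨om', h1, h2, fun z i j => by rw [h3, avg_t h (z 0)]⟩

/-! ### the criterion in terms of constant forms on the fibre -/

/-- the form on `ℝ⁴` of a constant form on the fibre -/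
def ext3 (be : Matrix (Fin 3) (Fin 3) ℝ) : M4 :=
  Matrix.of (Fin.cons 0 fun i => Fin.cons 0 fun j => be i j)

/-- value of a constant form on the fibre directions -/
theorem ev_ext3 (be : Matrix (Fin 3) (Fin 3) ℝ) (v w : R4) :
    ev (ext3 be) v w = ∑ i : Fin 3, ∑ j : Fin 3, v i.succ * be i j * w j.succ := by
  simp only [ev, Fin.sum_univ_four, Fin.sum_univ_three]
  have e0 : ∀ i, ext3 be 0 i = 0 := fun _ => rfl
  have e1 : ext3 be 1 0 = 0 := rfl
  have e2 : ext3 be 2 0 = 0 := rfl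
  have e3 : ext3 be 3 0 = 0 := rfl
  rw [e0, e0, e0, e0, e1, e2, e3]
  change _ = v 1 * ext3 be 1 1 * w 1 + v 1 * ext3 be 1 2 * w 2 + v 1 * ext3 be 1 3 * w 3 +
    (v 2 * ext3 be 2 1 * w 1 + v 2 * ext3 be 2 2 * w 2 + v 2 * ext3 be 2 3 * w 3) +
    (v 3 * ext3 be 3 1 * w 1 + v 3 * ext3 be 3 2 * w 2 + v 3 * ext3 be 3 3 * w 3)
  ring

theorem sum_form (be : Matrix (Fin 3) (Fin 3) ℝ) (x y : Fin 3 → ℝ) :
    ∑ i : Fin 3, ∑ j : Fin 3, x i * be i j * y j = x ⬝ᵥ (be *ᵥ y) := by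
  simp only [dotProduct, Matrix.mulVec, Finset.mul_sum, mul_assoc]

theorem of_const {A : Matrix (Fin 3) (Fin 3) ℤ} (hA : IsUnit A.det) {J : R4 → M4}
    (hJ : IsAlmostComplex A J) (hf : FibreInvariant J) {be : Matrix (Fin 3) (Fin 3) ℝ}
    (h1 : beᵀ = -be) (h2 : (A.map (Int.cast : ℤ → ℝ))ᵀ * be * A.map (Int.cast : ℤ → ℝ) = be)
    (h3 : ∀ z v : R4, v 0 = 0 → (J z *ᵥ v) 0 = 0 → v ≠ 0 →
      0 < ∑ i : Fin 3, ∑ j : Fin 3, v i.succ * be i j * (J z *ᵥ v) j.succ) :
    ∃ om' : R4 → M4, IsSymplectic A om' ∧ Compatible om' J ∧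
      ∀ z, ∀ i j : Fin 3, om' z i.succ j.succ = be i j := by
  have ha : ∀ i j, be i j = -be j i := fun i j => by
    have := congrFun (congrFun h1 j) i
    simpa using this
  have hanti : ∀ i j, ext3 be i j = -ext3 be j i := by
    intro i j
    refine Fin.cases ?_ (fun i => ?_) i <;> refine Fin.cases ?_ (fun j => ?_) j
    · simp [ext3]
    · simp [ext3]
    · simp [ext3]
    · exact ha i j
  have hp : ∀ z, Ptw (ext3 be) (J z) := fun z => ⟨fun j => rfl, hanti, hJ.sq z,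
    fun v hv hv1 hv0 => by rw [ev_ext3]; exact h3 z v hv hv1 hv0⟩
  have hB : ∀ v w : R4, v 0 = 0 → w 0 = 0 →
      ev (ext3 be) (lin A *ᵥ v) (lin A *ᵥ w) = ev (ext3 be) v w := by
    intro v w _ _
    rw [ev_ext3, ev_ext3]
    simp only [lin_succ]
    rw [sum_form, sum_form be (fun i => v i.succ) (fun j => w j.succ)]
    have h2' : (rm A)ᵀ * be * rm A = be := h2
    change _ = Fin.tail v ⬝ᵥ (be *ᵥ Fin.tail w)
    conv_rhs => rw [← h2', ← Matrix.mulVec_mulVec, ← Matrix.mulVec_mulVec,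
      Matrix.dotProduct_mulVec, Matrix.vecMul_transpose]
  obtain ⟨om', e1, e2, e3⟩ := of_fibre hA hJ hf hp hB
  exact ⟨om', e1, e2, fun z i j => e3 z i j⟩

/-- from a taming form to a constant form on the fibre -/
theorem to_const {A : Matrix (Fin 3) (Fin 3) ℤ} (hA : IsUnit A.det) {J : R4 → M4}
    (hJ : IsAlmostComplex A J) (hf : FibreInvariant J) {om : R4 → M4} (h : IsSymplectic A om)
    (ht : Tames om J) : ∃ be : Matrix (Fin 3) (Fin 3) ℝ, beᵀ = -be ∧
      (A.map (Int.cast : ℤ → ℝ))ᵀ * be * A.map (Int.cast : ℤ → ℝ) = be ∧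
      ∀ z v : R4, v 0 = 0 → (J z *ᵥ v) 0 = 0 → v ≠ 0 →
        0 < ∑ i : Fin 3, ∑ j : Fin 3, v i.succ * be i j * (J z *ᵥ v) j.succ := by
  let be : Matrix (Fin 3) (Fin 3) ℝ := Matrix.of fun i j => avg om i.succ j.succ
  have hext : ext3 be = avg om := by
    ext i j
    refine Fin.cases ?_ (fun i => ?_) i <;> refine Fin.cases ?_ (fun j => ?_) j <;> rfl
  refine ⟨be, ?_, ?_, ?_⟩
  · ext i j
    exact avg_anti h j.succ i.succ
  · ext i j
    have e := avg_lin hA h (Fin.cons 0 (Pi.single i 1)) (Fin.cons 0 (Pi.single j 1)) rfl rfl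
    rw [← hext, ev_ext3, ev_ext3] at e
    simp only [lin_succ, Fin.tail_cons, Fin.cons_succ] at e
    rw [sum_form, sum_form] at e
    have e' : (Pi.single i (1 : ℝ) : Fin 3 → ℝ) ⬝ᵥ
        (((rm A)ᵀ * be * rm A) *ᵥ (Pi.single j (1 : ℝ) : Fin 3 → ℝ)) =
        (Pi.single i (1 : ℝ) : Fin 3 → ℝ) ⬝ᵥ (be *ᵥ (Pi.single j (1 : ℝ) : Fin 3 → ℝ)) := by
      rw [← e, ← Matrix.mulVec_mulVec, ← Matrix.mulVec_mulVec, Matrix.dotProduct_mulVec,
        Matrix.vecMul_transpose]
    simpa [rm] using e'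
  · intro z v hv hv1 hv0
    rw [← ev_ext3, hext]
    exact (avg_ptw hJ hf h ht z).pos v hv hv1 hv0

end Vale.Agent.P204
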